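import Vale.Agent.P302.Defs
import Vale.Agent.P302.Main

namespace Vale.Agent.Results.P302.Unbounded

open Vale.Agent.P302

/-- The modified integer round-up conjecture is false, and the additive gap `OPT - ⌈LP⌉` is
unbounded, already for item sizes strictly between `1/4` and `1/2`. -/
theorem result :
    (¬ ∀ (n : ℕ) (a : Fin n → ℚ), (∀ i, 0 < a i ∧ a i ≤ 1) → (OPT a : ℤ) ≤ ⌈LP a⌉ + 1) ∧
    ∀ c : ℕ, ∃ (n : ℕ) (a : Fin n → ℚ), (∀ i, 1 / 4 < a i ∧ a i < 1 / 2) ∧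
      IsGLB (LPValues a) (LP a) ∧ ⌈LP a⌉ + (c : ℤ) < (OPT a : ℤ) := by
  have h : ∀ c : ℕ, ∃ (n : ℕ) (a : Fin n → ℚ), (∀ i, 1 / 4 < a i ∧ a i < 1 / 2) ∧
      IsGLB (LPValues a) (LP a) ∧ ⌈LP a⌉ + (c : ℤ) < (OPT a : ℤ) := by
    intro c
    obtain ⟨n, a, h1, P, h2, h3⟩ := gap c
    refine ⟨n, a, h1, isGLB_csInf ⟨_, h2⟩ (lp_bdd a), ?_⟩
    have h4 : ⌈LP a⌉ ≤ (P : ℤ) := Int.ceil_le.2 (by exact_mod_cast csInf_le (lp_bdd a) h2)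
    omega
  refine ⟨fun h5 => ?_, h⟩
  obtain ⟨n, a, h1, -, h3⟩ := h 1
  have := h5 n a fun i => ⟨by linarith [(h1 i).1], by linarith [(h1 i).2]⟩
  omega

end Vale.Agent.Results.P302.Unbounded
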